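import Vale.Agent.P348.Main

namespace Vale.Agent.Results.P348.HaldaneGap

open Vale.Agent.P348

/-- The spin-one Heisenberg ring has a spectral gap bounded below uniformly in the even length. -/
theorem result : (∃ S, IsSpinOne S) ∧ ∀ S, IsSpinOne S →
    ∃ Δ : ℝ, 0 < Δ ∧ ∀ L : ℕ, Even L → 4 ≤ L → ∃ E0 E1 : ℝ,
      IsLeast (spectrum ℝ (ham S L)) E0 ∧ IsLeast (spectrum ℝ (ham S L) \ {E0}) E1 ∧
        Δ ≤ E1 - E0 :=
  ⟨exists_spinOne, fun _ hS => gap_main hS⟩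

end Vale.Agent.Results.P348.HaldaneGap
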